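import Vale.Agent.P207.SPH.Defs

/-!
# P207, project SPH, row R8
-/

open Matrix MeasureTheory Set Filter Topology

noncomputable section

namespace Vale.Agent.P207.SPH.H752

/-- orthonormal `k`-frames -/
def St (m k : ℕ) : Set (Matrix (Fin m) (Fin k) ℝ) := {W | Wᵀ * W = 1}

lemma isCompact_St (m k : ℕ) : IsCompact (St m k) := by
  have hK : IsCompact (Set.pi univ fun _ : Fin m => Set.pi univ fun _ : Fin k =>
      Icc (-1 : ℝ) 1) :=
    isCompact_univ_pi fun _ => isCompact_univ_pi fun _ => isCompact_Icc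
  refine IsCompact.of_isClosed_subset hK ?_ ?_
  · have hc : Continuous fun W : Matrix (Fin m) (Fin k) ℝ => Wᵀ * W :=
      continuous_id.matrix_transpose.matrix_mul continuous_id
    exact isClosed_singleton.preimage hc
  · intro W hW i _ j _
    have h1 : (Wᵀ * W) j j = 1 := by
      rw [show Wᵀ * W = 1 from hW]
      simp
    rw [Matrix.mul_apply] at h1
    simp only [Matrix.transpose_apply] at h1
    have h2 : W i j * W i j ≤ 1 := by
      rw [← h1]
      exact Finset.single_le_sum (f := fun x => W x j * W x j)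
        (fun x _ => mul_self_nonneg _) (Finset.mem_univ i)
    constructor <;> nlinarith

lemma sg_eq (m k : ℕ) (S : Mt m) :
    sg k S = sSup ((fun W : Matrix (Fin m) (Fin k) ℝ => (Wᵀ * S * W).trace) '' St m k) := by
  unfold sg
  congr 1
  ext x
  constructor
  · rintro ⟨W, hW, rfl⟩
    exact ⟨W, hW, rfl⟩
  · rintro ⟨W, hW, rfl⟩
    exact ⟨W, hW, rfl⟩

lemma topV_eq (m k : ℕ) (S : Mt m) :
    topV k S = sSup ((fun W : Matrix (Fin m) (Fin k) ℝ => (Wᵀ * S * W).det) '' St m k) := by
  unfold topV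
  congr 1
  ext x
  constructor
  · rintro ⟨W, hW, rfl⟩
    exact ⟨W, hW, rfl⟩
  · rintro ⟨W, hW, rfl⟩
    exact ⟨W, hW, rfl⟩

lemma cont_form (m k : ℕ) : Continuous fun q : Mt m × Matrix (Fin m) (Fin k) ℝ =>
    q.2ᵀ * q.1 * q.2 :=
  (continuous_snd.matrix_transpose.matrix_mul continuous_fst).matrix_mul continuous_snd

lemma cont_sg (m k : ℕ) : Continuous (fun S : Mt m => sg k S) := by
  simp_rw [sg_eq]
  refine (isCompact_St m k).continuous_sSup
    (f := fun (S : Mt m) (W : Matrix (Fin m) (Fin k) ℝ) => (Wᵀ * S * W).trace) ?_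
  exact (cont_form m k).matrix_trace

lemma cont_topV (m k : ℕ) : Continuous (fun S : Mt m => topV k S) := by
  simp_rw [topV_eq]
  refine (isCompact_St m k).continuous_sSup
    (f := fun (S : Mt m) (W : Matrix (Fin m) (Fin k) ℝ) => (Wᵀ * S * W).det) ?_
  exact (cont_form m k).matrix_det

lemma le_sg (m k : ℕ) (S : Mt m) (W : Matrix (Fin m) (Fin k) ℝ) (hW : Wᵀ * W = 1) :
    (Wᵀ * S * W).trace ≤ sg k S := by
  rw [sg_eq]
  refine le_csSup ?_ ⟨W, hW, rfl⟩
  refine ((isCompact_St m k).image ?_).bddAbove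
  exact ((continuous_id.matrix_transpose.matrix_mul continuous_const).matrix_mul
    continuous_id).matrix_trace

lemma le_topV (m k : ℕ) (S : Mt m) (W : Matrix (Fin m) (Fin k) ℝ) (hW : Wᵀ * W = 1) :
    (Wᵀ * S * W).det ≤ topV k S := by
  rw [topV_eq]
  refine le_csSup ?_ ⟨W, hW, rfl⟩
  refine ((isCompact_St m k).image ?_).bddAbove
  exact ((continuous_id.matrix_transpose.matrix_mul continuous_const).matrix_mul
    continuous_id).matrix_det

/-- a symmetric square root -/
lemma exists_root {m : ℕ} (S : Mt m) (hS : Sᵀ = S) (h0 : ∀ x, 0 ≤ x ⬝ᵥ (S *ᵥ x)) :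
    ∃ R : Mt m, Rᵀ = R ∧ R * R = S := by
  open scoped MatrixOrder in
  have hp : S.PosSemidef := by
    refine Matrix.PosSemidef.of_dotProduct_mulVec_nonneg ?_ ?_
    · rw [Matrix.IsHermitian, Matrix.conjTranspose_eq_transpose_of_trivial]
      exact hS
    · intro x
      simpa using h0 x
  refine ⟨CFC.sqrt S, ?_, CFC.sqrt_mul_sqrt_self S hp.nonneg⟩
  have h := (CFC.sqrt_nonneg S).posSemidef.isHermitian
  rw [Matrix.IsHermitian, Matrix.conjTranspose_eq_transpose_of_trivial] at h
  exact h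

theorem kyStmt : SPH.KyStmt := by
  intro m k _
  refine ⟨cont_sg m k, cont_topV m k, ?_⟩
  intro S hS a ha hlo W hW
  obtain ⟨R, hR, hRR⟩ := exists_root S hS fun x =>
    (mul_nonneg ha.le (by
      rw [dotProduct]
      exact Finset.sum_nonneg fun i _ => mul_self_nonneg _)).trans (hlo x)
  have h1 : (R * W)ᵀ * (R * W) = 1 := by
    rw [Matrix.transpose_mul, hR, ← hW, ← hRR]
    simp only [Matrix.mul_assoc]
  have h2 := le_sg m k S (R * W) h1
  have h3 : (R * W)ᵀ * S * (R * W) = Wᵀ * (S * S) * W := by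
    rw [Matrix.transpose_mul, hR, ← hRR]
    simp only [Matrix.mul_assoc]
  rwa [h3] at h2

end Vale.Agent.P207.SPH.H752
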