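import Vale.Agent.P207.SPH.H752.Ky

/-!
# P207, project SPH: the equality case of the Ky Fan bound
-/

open Matrix MeasureTheory Set Filter Topology

noncomputable section

namespace Vale.Agent.P207.SPH.H752

lemma dot_self_nonneg {n : ℕ} (x : Fin n → ℝ) : 0 ≤ x ⬝ᵥ x := by
  rw [dotProduct]
  exact Finset.sum_nonneg fun i _ => mul_self_nonneg _

lemma quad_tmul {n k : ℕ} (Z : Matrix (Fin n) (Fin k) ℝ) (x : Fin k → ℝ) :
    x ⬝ᵥ ((Zᵀ * Z) *ᵥ x) = (Z *ᵥ x) ⬝ᵥ (Z *ᵥ x) := by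
  rw [← Matrix.mulVec_mulVec, Matrix.dotProduct_mulVec, Matrix.vecMul_transpose]

/-- maximal frames are invariant -/
lemma top_inv {m k : ℕ} (S : Mt m) (hS : Sᵀ = S) (W : Matrix (Fin m) (Fin k) ℝ)
    (hW : Wᵀ * W = 1) (he : (Wᵀ * S * W).trace = sg k S) :
    S * W = W * (Wᵀ * S * W) := by
  set A : Matrix (Fin k) (Fin k) ℝ := Wᵀ * S * W with hA
  set Z : Matrix (Fin m) (Fin k) ℝ := S * W - W * A with hZ
  have h1 : Wᵀ * Z = 0 := by
    rw [hZ, Matrix.mul_sub, ← Matrix.mul_assoc, ← Matrix.mul_assoc, hW, Matrix.one_mul, ← hA,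
      sub_self]
  have h2 : Zᵀ * W = 0 := by
    have := congrArg Matrix.transpose h1
    rwa [Matrix.transpose_mul, Matrix.transpose_transpose, Matrix.transpose_zero] at this
  have h3 : S * W = Z + W * A := by rw [hZ]; abel
  have h4 : Zᵀ * (S * W) = Zᵀ * Z := by
    rw [h3, Matrix.mul_add, ← Matrix.mul_assoc, h2, Matrix.zero_mul, add_zero]
  have h5 : Wᵀ * S * Z = Zᵀ * Z := by
    have := congrArg Matrix.transpose h4
    rw [Matrix.transpose_mul, Matrix.transpose_mul, Matrix.transpose_mul,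
      Matrix.transpose_transpose, hS] at this
    rw [this]
  set H : Matrix (Fin k) (Fin k) ℝ := Zᵀ * Z with hH
  set C : Matrix (Fin k) (Fin k) ℝ := Zᵀ * S * Z with hC
  -- the Gram matrix and the form of `W + ε Z`
  have hG : ∀ ε : ℝ, (W + ε • Z)ᵀ * (W + ε • Z) = 1 + (ε ^ 2) • H := by
    intro ε
    rw [Matrix.transpose_add, Matrix.transpose_smul, Matrix.add_mul, Matrix.mul_add,
      Matrix.mul_add, hW, Matrix.mul_smul, h1, Matrix.smul_mul, h2, Matrix.smul_mul,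
      Matrix.mul_smul, ← hH]
    simp only [smul_zero, add_zero, zero_add, smul_smul, sq]
  have hM : ∀ ε : ℝ, (W + ε • Z)ᵀ * S * (W + ε • Z) = A + (2 * ε) • H + (ε ^ 2) • C := by
    intro ε
    have e1 : Zᵀ * S * W = H := by rw [Matrix.mul_assoc, h4]
    rw [Matrix.transpose_add, Matrix.transpose_smul, Matrix.add_mul, Matrix.add_mul,
      Matrix.mul_add, Matrix.mul_add, ← hA, Matrix.mul_smul, h5, Matrix.smul_mul, Matrix.smul_mul,
      e1, Matrix.smul_mul, Matrix.mul_smul, ← hC, smul_smul, sq, two_mul, add_smul]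
    abel
  -- the bound
  have key : ∀ ε : ℝ, ((A + (2 * ε) • H + (ε ^ 2) • C) * (1 + (ε ^ 2) • H)⁻¹).trace ≤ A.trace := by
    intro ε
    set G : Matrix (Fin k) (Fin k) ℝ := 1 + (ε ^ 2) • H with hGd
    have hGG : (W + ε • Z)ᵀ * (W + ε • Z) = G := hG ε
    have hGs : Gᵀ = G := by
      rw [← hGG, Matrix.transpose_mul, Matrix.transpose_transpose]
    have hGx : ∀ x, x ⬝ᵥ (G *ᵥ x) = x ⬝ᵥ x + ε ^ 2 * ((Z *ᵥ x) ⬝ᵥ (Z *ᵥ x)) := by
      intro x
      rw [hGd, Matrix.add_mulVec, Matrix.one_mulVec, dotProduct_add, Matrix.smul_mulVec,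
        dotProduct_smul, hH, quad_tmul, smul_eq_mul]
    have hGn : ∀ x, x ⬝ᵥ x ≤ x ⬝ᵥ (G *ᵥ x) := by
      intro x
      rw [hGx]
      nlinarith [dot_self_nonneg (Z *ᵥ x), sq_nonneg ε,
        mul_nonneg (sq_nonneg ε) (dot_self_nonneg (Z *ᵥ x))]
    obtain ⟨P, hP, hPP⟩ := exists_root G hGs fun x => (dot_self_nonneg x).trans (hGn x)
    have hGd0 : G.det ≠ 0 := by
      intro h0
      obtain ⟨v, hv, hv0⟩ := Matrix.exists_mulVec_eq_zero_iff.2 h0
      have := hGn v
      rw [hv0, dotProduct_zero] at this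
      exact hv (dotProduct_self_eq_zero.1 (le_antisymm this (dot_self_nonneg v)))
    have hPd : IsUnit P.det := by
      rw [isUnit_iff_ne_zero]
      intro h0
      apply hGd0
      rw [← hPP, Matrix.det_mul, h0, zero_mul]
    have hPi : P * P⁻¹ = 1 := Matrix.mul_nonsing_inv _ hPd
    have hPi' : P⁻¹ * P = 1 := Matrix.nonsing_inv_mul _ hPd
    have hPt : (P⁻¹)ᵀ = P⁻¹ := by rw [Matrix.transpose_nonsing_inv, hP]
    have hGi : G⁻¹ = P⁻¹ * P⁻¹ := by rw [← hPP, Matrix.mul_inv_rev]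
    have hfr : ((W + ε • Z) * P⁻¹)ᵀ * ((W + ε • Z) * P⁻¹) = 1 := by
      rw [Matrix.transpose_mul, hPt]
      calc P⁻¹ * (W + ε • Z)ᵀ * ((W + ε • Z) * P⁻¹)
          = P⁻¹ * ((W + ε • Z)ᵀ * (W + ε • Z)) * P⁻¹ := by simp only [Matrix.mul_assoc]
        _ = P⁻¹ * (P * P) * P⁻¹ := by rw [hGG, hPP]
        _ = (P⁻¹ * P) * (P * P⁻¹) := by simp only [Matrix.mul_assoc]
        _ = 1 := by rw [hPi, hPi', Matrix.one_mul]
    have h6 := le_sg m k S _ hfr
    rw [← he] at h6
    have h7 : ((W + ε • Z) * P⁻¹)ᵀ * S * ((W + ε • Z) * P⁻¹) =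
        P⁻¹ * ((A + (2 * ε) • H + (ε ^ 2) • C) * P⁻¹) := by
      rw [Matrix.transpose_mul, hPt, ← hM]
      simp only [Matrix.mul_assoc]
    rw [h7, Matrix.trace_mul_comm, Matrix.mul_assoc, ← hGi] at h6
    exact h6
  -- the derivative at zero
  have hinv : ∀ ε : ℝ, (1 + (ε ^ 2) • H)⁻¹ = 1 - (ε ^ 2) • (H * (1 + (ε ^ 2) • H)⁻¹) := by
    intro ε
    set G : Matrix (Fin k) (Fin k) ℝ := 1 + (ε ^ 2) • H with hGd
    have hGd0 : G.det ≠ 0 := by
      intro h0
      obtain ⟨v, hv, hv0⟩ := Matrix.exists_mulVec_eq_zero_iff.2 h0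
      have hx : v ⬝ᵥ (G *ᵥ v) = v ⬝ᵥ v + ε ^ 2 * ((Z *ᵥ v) ⬝ᵥ (Z *ᵥ v)) := by
        rw [hGd, Matrix.add_mulVec, Matrix.one_mulVec, dotProduct_add, Matrix.smul_mulVec,
          dotProduct_smul, hH, quad_tmul, smul_eq_mul]
      rw [hv0, dotProduct_zero] at hx
      have h8 := mul_nonneg (sq_nonneg ε) (dot_self_nonneg (Z *ᵥ v))
      have h9 := dot_self_nonneg v
      exact hv (dotProduct_self_eq_zero.1 (le_antisymm (by linarith) h9))
    have h10 : G * G⁻¹ = 1 := Matrix.mul_nonsing_inv _ (isUnit_iff_ne_zero.2 hGd0)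
    have h11 : G⁻¹ + (ε ^ 2) • (H * G⁻¹) = 1 := by
      rw [← h10]
      conv_rhs => rw [hGd]
      rw [Matrix.add_mul, Matrix.one_mul, Matrix.smul_mul]
    rw [← h11]
    abel
  have hineq : ∀ ε : ℝ, 0 < ε → 2 * H.trace ≤
      ε * (((A + (2 * ε) • H + (ε ^ 2) • C) * (H * (1 + (ε ^ 2) • H)⁻¹)).trace - C.trace) := by
    intro ε hε
    have h12 := key ε
    rw [hinv, Matrix.mul_sub, Matrix.mul_one, Matrix.mul_smul, Matrix.trace_sub,
      Matrix.trace_smul, Matrix.trace_add, Matrix.trace_add, Matrix.trace_smul,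
      Matrix.trace_smul] at h12
    simp only [smul_eq_mul] at h12
    have h13 : ε * (2 * H.trace) ≤ ε * (ε * (((A + (2 * ε) • H + (ε ^ 2) • C) *
        (H * (1 + (ε ^ 2) • H)⁻¹)).trace - C.trace)) := by nlinarith
    exact le_of_mul_le_mul_left h13 hε
  have hcont : ContinuousAt (fun ε : ℝ => ε * (((A + (2 * ε) • H + (ε ^ 2) • C) *
      (H * (1 + (ε ^ 2) • H)⁻¹)).trace - C.trace)) 0 := by
    have cG : Continuous fun ε : ℝ => (1 + (ε ^ 2) • H : Matrix (Fin k) (Fin k) ℝ) :=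
      continuous_const.add ((continuous_pow 2).smul continuous_const)
    have ci : ContinuousAt (fun ε : ℝ => (1 + (ε ^ 2) • H : Matrix (Fin k) (Fin k) ℝ)⁻¹) 0 := by
      simp only [Matrix.inv_def, Ring.inverse_eq_inv']
      refine ContinuousAt.smul (ContinuousAt.inv₀ cG.matrix_det.continuousAt ?_)
        cG.matrix_adjugate.continuousAt
      simp
    have cM : ContinuousAt (fun ε : ℝ => (A + (2 * ε) • H + (ε ^ 2) • C :
        Matrix (Fin k) (Fin k) ℝ)) 0 := by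
      apply Continuous.continuousAt
      exact (continuous_const.add ((continuous_const.mul continuous_id).smul
        continuous_const)).add ((continuous_pow 2).smul continuous_const)
    have c1 : ContinuousAt (fun ε : ℝ => (A + (2 * ε) • H + (ε ^ 2) • C) *
        (H * (1 + (ε ^ 2) • H)⁻¹)) 0 := by
      have c2 : Continuous fun q : Matrix (Fin k) (Fin k) ℝ × Matrix (Fin k) (Fin k) ℝ =>
          q.1 * (H * q.2) :=
        continuous_fst.matrix_mul (continuous_const.matrix_mul continuous_snd)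
      exact c2.continuousAt.comp (cM.prodMk ci)
    have c3 : Continuous fun q : Matrix (Fin k) (Fin k) ℝ => q.trace := continuous_id.matrix_trace
    exact continuousAt_id.mul ((c3.continuousAt.comp c1).sub continuousAt_const)
  have hlim : Tendsto (fun ε : ℝ => ε * (((A + (2 * ε) • H + (ε ^ 2) • C) *
      (H * (1 + (ε ^ 2) • H)⁻¹)).trace - C.trace)) (𝓝[>] 0) (𝓝 0) := by
    have := hcont.tendsto
    simp only [zero_mul] at this
    exact this.mono_left nhdsWithin_le_nhds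
  have htr : 2 * H.trace ≤ 0 := by
    refine ge_of_tendsto hlim ?_
    filter_upwards [self_mem_nhdsWithin] with ε hε
    exact hineq ε hε
  have hz : Z = 0 := by
    have h14 : H.trace = ∑ j, ∑ i, Z i j * Z i j := by
      rw [hH, Matrix.trace]
      refine Finset.sum_congr rfl fun j _ => ?_
      rw [Matrix.diag_apply, Matrix.mul_apply]
      rfl
    have h15 : ∑ j, ∑ i, Z i j * Z i j = 0 := by
      refine le_antisymm (by linarith) ?_
      exact Finset.sum_nonneg fun j _ => Finset.sum_nonneg fun i _ => mul_self_nonneg _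
    ext i j
    have h16 := (Finset.sum_eq_zero_iff_of_nonneg
      (fun j _ => Finset.sum_nonneg fun i _ => mul_self_nonneg _)).1 h15 j (Finset.mem_univ j)
    have h17 := (Finset.sum_eq_zero_iff_of_nonneg
      (fun i _ => mul_self_nonneg _)).1 h16 i (Finset.mem_univ i)
    exact mul_self_eq_zero.1 h17
  rw [h3, hz, zero_add]

/-- **[A]** equality in the Ky Fan bound in the `S`-metric -/
theorem ky_eq {m k : ℕ} (hk : k ≤ m) (S : Mt m) (hS : Sᵀ = S) (a : ℝ) (ha : 0 < a)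
    (h : ∀ x, a * (x ⬝ᵥ x) ≤ x ⬝ᵥ (S *ᵥ x)) (W : Matrix (Fin m) (Fin k) ℝ)
    (hW : Wᵀ * S * W = 1) (he : (Wᵀ * (S * S) * W).trace = sg k S) :
    S * W = W * (Wᵀ * (S * S) * W) := by
  obtain ⟨R, hR, hRR⟩ := exists_root S hS fun x =>
    (mul_nonneg ha.le (dot_self_nonneg x)).trans (h x)
  have hSd : S.det ≠ 0 := by
    intro h0
    obtain ⟨v, hv, hv0⟩ := Matrix.exists_mulVec_eq_zero_iff.2 h0
    have h1 := h v
    rw [hv0, dotProduct_zero] at h1
    have h2 := dot_self_nonneg v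
    exact hv (dotProduct_self_eq_zero.1 (le_antisymm (by nlinarith) h2))
  have hRd : IsUnit R.det := by
    rw [isUnit_iff_ne_zero]
    intro h0
    apply hSd
    rw [← hRR, Matrix.det_mul, h0, zero_mul]
  have h1 : (R * W)ᵀ * (R * W) = 1 := by
    rw [Matrix.transpose_mul, hR, ← hW, ← hRR]
    simp only [Matrix.mul_assoc]
  have h3 : (R * W)ᵀ * S * (R * W) = Wᵀ * (S * S) * W := by
    rw [Matrix.transpose_mul, hR, ← hRR]
    simp only [Matrix.mul_assoc]
  have h4 := top_inv S hS (R * W) h1 (by rw [h3]; exact he)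
  rw [h3] at h4
  have h5 : R * (S * W) = R * (W * (Wᵀ * (S * S) * W)) := by
    calc R * (S * W) = S * (R * W) := by
          rw [← hRR]
          simp only [Matrix.mul_assoc]
      _ = R * W * (Wᵀ * (S * S) * W) := h4
      _ = R * (W * (Wᵀ * (S * S) * W)) := by rw [Matrix.mul_assoc]
  have h6 : R⁻¹ * (R * (S * W)) = R⁻¹ * (R * (W * (Wᵀ * (S * S) * W))) := by rw [h5]
  rwa [← Matrix.mul_assoc, ← Matrix.mul_assoc R⁻¹, Matrix.nonsing_inv_mul _ hRd, Matrix.one_mul,
    Matrix.one_mul] at h6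

end Vale.Agent.P207.SPH.H752
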